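import Vale.Agent.P144D.U.Dom
import Vale.Agent.P144D.U.Lat
import Vale.Agent.P144D.K.Main
import Vale.Agent.P144D.B.Gap
import Vale.Agent.P144D.B.Shr
import Vale.Agent.P144D.B.Bd
import Vale.Agent.P144D.Dom.A
import Vale.Agent.P144D.FD.Both
import Vale.Agent.P144D.MN.Main
import Vale.Agent.P144Z.R7.Main
import Vale.Agent.P144Z.S.Main

/-!
The assembly of the plane and domain statements.
-/

namespace Vale.Agent.P144Z

theorem latStmt : LatStmt :=
  latStmt_of (mainBoth_of mainStmtD) (bdStmt_of shrStmt) (kStmt_of gapStmt)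

theorem domQ1 : DomQ1 :=
  U2D.domQ1_aux (fun _ _ h => shape_of_tame h) crit_par0 bulkStmt stateStmt latStmt

end Vale.Agent.P144Z
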