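import Vale.Agent.P144D.Fin.Dom
import Vale.Agent.P144D.PS.Box

/-!
The assembly of the plane and domain statements, with the plane state of the problem.
-/

namespace Vale.Agent.P144Z

open Filter Topology Vale.Agent.P144 U2D

theorem domQ2 : ∀ α > 0, ∀ J > 0, ∀ V, IsPotential V → ∀ ε > 0, ∃ lam₀ > 0, ∀ lam : ℝ,
    |lam| < lam₀ → ∃ β > 0, ∃ Zσ Zε : ℝ, |β - Kc / J| < ε ∧ |Zσ - 1| < ε ∧ |Zε - 1| < ε ∧
      Zσ ≠ 0 ∧ Zε ≠ 0 ∧
      (∃ μ, IsPlaneState J lam V β μ ∧ IsTorusState J lam V β μ ∧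
        ∀ E₀, PlaneFam J 0 (fun _ => 0) (Kc / J) E₀ →
          Diff Set.univ E₀ (famOf μ) Zσ Zε ∧ Identity Set.univ E₀ (famOf μ) Zσ Zε) ∧
      ∀ D, Tame α D → ∀ b, StdBC b → Diff D (crit J D b) (inDom J lam V β D b) Zσ Zε ∧
        Identity D (crit J D b) (inDom J lam V β D b) Zσ Zε := by
  have hT : ShapeStmt := fun _ _ h => shape_of_tame h
  have h0 := crit_par0
  have hB := bulkStmt
  have hS := stateStmt
  have hM := latStmt
  obtain ⟨LX, hX⟩ := boxStmt (bdStmt_of shrStmt) gapStmt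
  intro α hα J hJ V hV ε hε
  obtain ⟨LB, hB⟩ := hB
  obtain ⟨LS, hS⟩ := hS
  obtain ⟨LM, hM⟩ := hM α hα
  set L := max LB (max LS (max LM LX)) with hL
  obtain ⟨ηB, hηB, hB⟩ := hB L (le_max_left _ _)
  obtain ⟨ηS, hηS, hS⟩ := hS L (le_max_of_le_right (le_max_left _ _))
  obtain ⟨κ, hκ, hM⟩ := hM L (le_max_of_le_right (le_max_of_le_right (le_max_left _ _)))
  obtain ⟨ηX, hηX, hX⟩ := hX L (le_max_of_le_right (le_max_of_le_right (le_max_right _ _)))
  obtain ⟨ηM, hηM, hM⟩ := hM (min ε (1 / 2)) (by positivity)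
  obtain ⟨η₁, hη₁, hc⟩ : ∃ η₁ > 0, ∀ x : ℝ, |x - tc| ≤ η₁ →
      |-Real.log x / (2 * J) - Kc / J| < ε := by
    have htc : tc ≠ 0 := by
      rw [U4.tc_eq]
      exact (Real.exp_pos _).ne'
    have h1 : ContinuousAt (fun x : ℝ => -Real.log x / (2 * J)) tc :=
      ((Real.continuousAt_log htc).neg).div_const _
    obtain ⟨δ, hδ, h2⟩ := Metric.continuousAt_iff.1 h1 ε hε
    refine ⟨δ / 2, by positivity, fun x hx => ?_⟩
    have h3 := h2 (x := x) (by rw [Real.dist_eq]; linarith)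
    have e : -Real.log tc / (2 * J) = Kc / J := by
      rw [U4.tc_eq, Real.log_exp]
      field_simp
    rwa [Real.dist_eq, e] at h3
  obtain ⟨R, hR⟩ := U4.exists_R hV
  obtain ⟨δS, hδS, hS1⟩ := hS R
  obtain ⟨δ0, hδ0, hS0⟩ := hS 0
  obtain ⟨δM, hδM, hM⟩ := hM R
  obtain ⟨δX, hδX, hX⟩ := hX R
  set η := min (min ηB ηS) (min (min ηM ηX) η₁) with hη
  obtain ⟨κ₀, hκ₀, hB⟩ := hB η (by positivity) ((min_le_left _ _).trans (min_le_left _ _)) V R hV
    hR (min δS (min δM δX)) (by positivity)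
  refine ⟨2 * J * κ₀, by positivity, fun lam hlam => ?_⟩
  obtain ⟨x, Z, hq⟩ := hB (lam / (2 * J)) (by
    rw [abs_div, abs_of_pos (by positivity : 0 < 2 * J), div_lt_iff₀ (by positivity)]
    linarith)
  set q : Par := ⟨V, R, lam / (2 * J) * (-Real.log x), x, Z⟩ with hqdef
  have hx0 : 0 < x := lt_of_lt_of_le (by norm_num) hq.ok.x_lo
  have hx1 : x < 1 := lt_of_le_of_lt hq.ok.x_hi (by norm_num)
  have hrel : U4.Rel J lam (-Real.log x / (2 * J)) q :=
    { pot := hV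
      range := hR
      mu := by
        change lam / (2 * J) * (-Real.log x) = _
        ring
      x := by
        change x = _
        rw [show -(2 * (-Real.log x / (2 * J)) * J) = Real.log x by field_simp, Real.exp_log hx0]
      st := hS1 q rfl (hq.mono ((min_le_left _ _).trans (min_le_right _ _)) (min_le_left _ _)) }
  have hrel0 := U4.rel_zero hJ (hS0 par0 rfl (h0 L ηS δ0 hηS.le hδ0.le))
  obtain ⟨Zσ, Zε, z1, z2, hmain, hlat⟩ := hM q rfl
    (hq.mono ((min_le_right _ _).trans ((min_le_left _ _).trans (min_le_left _ _)))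
      ((min_le_right _ _).trans (min_le_left _ _)))
  have hbox := hX q rfl
    (hq.mono ((min_le_right _ _).trans ((min_le_left _ _).trans (min_le_right _ _)))
      ((min_le_right _ _).trans (min_le_right _ _))) J lam _ hrel
  obtain ⟨μ, hμ, hμ'⟩ := U1.plane_of_torus hJ hV hrel.spin
    fun p hp hn e he => U4.est hJ hrel hrel0 hmain hp hn he
  obtain ⟨z3, z4⟩ := lt_min_iff.1 z1
  obtain ⟨z5, z6⟩ := lt_min_iff.1 z2
  refine ⟨-Real.log x / (2 * J), div_pos (neg_pos.2 (Real.log_neg hx0 hx1)) (by positivity),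
    Zσ, Zε, hc x (hq.x.trans ((min_le_right _ _).trans (min_le_right _ _))), z3, z5, ?_, ?_,
    ⟨μ, hbox μ hμ, hμ, hμ'⟩, fun D hD b hb => ?_⟩
  · rintro rfl
    norm_num at z4
  · rintro rfl
    norm_num at z6
  · have h := diff hT hκ hlat hJ hV hrel.mu hrel.x hD hb
    exact ⟨h, ident h⟩

end Vale.Agent.P144Z
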